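import Mathlib

/-!
# P162: the Thorp shuffle of a deck of `2 * m` cards, counting coin sequences
-/

namespace Vale.Agent.P162G

/-- One Thorp shuffle of a deck of `2 * m` cards with coins `c`: `step m c p` is the new position of
the card in position `p` (positions `0, ..., 2 m - 1`; the top half is `p < m`).  The cards in
positions `i` and `m + i` go to the positions `2 i` and `2 i + 1`, the coin `c i` decides in which
order. -/
def step (m : ℕ) (c : Fin m → Bool) (p : Fin (2 * m)) : Fin (2 * m) :=
  if h : (p : ℕ) < m then
    ⟨2 * (p : ℕ) + (if c ⟨p, h⟩ = true then 1 else 0), by split_ifs <;> omega⟩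
  else
    ⟨2 * ((p : ℕ) - m) + (if c ⟨(p : ℕ) - m, by omega⟩ = true then 0 else 1), by
      split_ifs <;> omega⟩

/-- `pos m t w p` is the position after `t` Thorp shuffles of the card which starts in position
`p`; the coins used in the `s`-th shuffle are `w s`. -/
def pos (m : ℕ) : (t : ℕ) → (Fin t → Fin m → Bool) → Fin (2 * m) → Fin (2 * m)
  | 0, _, p => p
  | t + 1, w, p => step m (w (Fin.last t)) (pos m t (fun s => w s.castSucc) p)

/-- The total variation distance, after `t` shuffles with independent fair coins, between the law
of the permutation of the `2 * m` positions and the uniform law: half the sum over all permutations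
`g` of `|P(g) - 1 / (2 m)!|`, where `P(g)` is the proportion of the `2 ^ (m t)` coin sequences which
produce `g`. -/
noncomputable def tvDist (m t : ℕ) : ℝ :=
  (1 / 2) * ∑ g : Equiv.Perm (Fin (2 * m)),
    |(Nat.card {w : Fin t → Fin m → Bool // pos m t w = g} : ℝ) / 2 ^ (m * t) -
      1 / ((2 * m).factorial : ℝ)|

end Vale.Agent.P162G
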