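import Vale.Agent.Lib.P162G.Defs
import Vale.Agent.Lib.P162F.Main

/-!
# P162: counting coin sequences gives the convolution powers of the Thorp law
-/

namespace Vale.Agent.P162G

open Vale.Agent.P162

theorem card_eq_sum {α : Type*} [Fintype α] (P : α → Prop) [DecidablePred P] :
    (Nat.card {x : α // P x} : ℝ) = ∑ x : α, if P x then (1 : ℝ) else 0 := by
  rw [Nat.card_eq_fintype_card, Fintype.card_subtype, Finset.sum_boole]

theorem step_inj (m : ℕ) (c : Fin m → Bool) : Function.Injective (step m c) := by
  intro p q hpq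
  have h := congrArg Fin.val hpq
  unfold step at h
  by_cases hp : (p : ℕ) < m <;> by_cases hq : (q : ℕ) < m
  · rw [dif_pos hp, dif_pos hq] at h
    simp only at h
    apply Fin.ext
    split_ifs at h <;> omega
  · rw [dif_pos hp, dif_neg hq] at h
    simp only at h
    exfalso
    have e : (p : ℕ) = (q : ℕ) - m := by split_ifs at h <;> omega
    have e2 : (⟨p, hp⟩ : Fin m) = ⟨(q : ℕ) - m, by omega⟩ := Fin.ext e
    rw [e2, e] at h
    split_ifs at h <;> omega
  · rw [dif_neg hp, dif_pos hq] at h
    simp only at h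
    exfalso
    have e : (q : ℕ) = (p : ℕ) - m := by split_ifs at h <;> omega
    have e2 : (⟨q, hq⟩ : Fin m) = ⟨(p : ℕ) - m, by omega⟩ := Fin.ext e
    rw [e2, e] at h
    split_ifs at h <;> omega
  · rw [dif_neg hp, dif_neg hq] at h
    simp only at h
    apply Fin.ext
    split_ifs at h <;> omega

/-- the permutation of one shuffle -/
noncomputable def sperm (m : ℕ) (c : Fin m → Bool) : Equiv.Perm (Fin (2 * m)) :=
  Equiv.ofBijective (step m c) (Finite.injective_iff_bijective.1 (step_inj m c))

theorem sperm_coe (m : ℕ) (c : Fin m → Bool) (p : Fin (2 * m)) : sperm m c p = step m c p := rfl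

theorem isThorp_sperm (m : ℕ) (c : Fin m → Bool) : IsThorp m c (sperm m c) := by
  intro i
  have hi := i.2
  constructor
  · rw [sperm_coe]
    unfold step
    rw [dif_pos hi]
  · rw [sperm_coe]
    unfold step
    rw [dif_neg (by simp)]
    simp

theorem isThorp_iff (m : ℕ) (c : Fin m → Bool) (g : Equiv.Perm (Fin (2 * m))) :
    IsThorp m c g ↔ sperm m c = g :=
  ⟨fun h => Pass.isThorp_unique (isThorp_sperm m c) h, fun h => h ▸ isThorp_sperm m c⟩

/-- the permutation of `t` shuffles -/
noncomputable def pperm (m : ℕ) : (t : ℕ) → (Fin t → Fin m → Bool) → Equiv.Perm (Fin (2 * m))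
  | 0, _ => 1
  | t + 1, w => sperm m (w (Fin.last t)) * pperm m t (fun s => w s.castSucc)

theorem pperm_coe (m t : ℕ) (w : Fin t → Fin m → Bool) : pos m t w = pperm m t w := by
  induction t with
  | zero => rfl
  | succ t ih =>
    funext p
    change step m (w (Fin.last t)) (pos m t (fun s => w s.castSucc) p) =
      (sperm m (w (Fin.last t)) * pperm m t (fun s => w s.castSucc)) p
    rw [ih]
    rfl

theorem law_eq (m t : ℕ) (g : Equiv.Perm (Fin (2 * m))) :
    (Nat.card {w : Fin t → Fin m → Bool // pos m t w = g} : ℝ) / 2 ^ (m * t) =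
      convPow (thorpLaw m) t g := by
  classical
  have h0 : ∀ (t : ℕ) (g : Equiv.Perm (Fin (2 * m))),
      (Nat.card {w : Fin t → Fin m → Bool // pos m t w = g} : ℝ) =
        ∑ w : Fin t → Fin m → Bool, if pperm m t w = g then (1 : ℝ) else 0 := by
    intro t g
    rw [card_eq_sum]
    refine Finset.sum_congr rfl fun w _ => ?_
    rw [pperm_coe]
    by_cases h : pperm m t w = g
    · rw [if_pos h, if_pos (by rw [h])]
    · rw [if_neg h, if_neg fun h' => h (DFunLike.coe_injective h')]
  induction t generalizing g with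
  | zero =>
    rw [h0]
    change (∑ _w : Fin 0 → Fin m → Bool, if (1 : Equiv.Perm (Fin (2 * m))) = g then (1 : ℝ) else 0) /
      2 ^ (m * 0) = if g = 1 then 1 else 0
    simp [eq_comm]
  | succ t ih =>
    have h1 : convPow (thorpLaw m) (t + 1) g =
        ∑ h, thorpLaw m h * convPow (thorpLaw m) t (h⁻¹ * g) := rfl
    have h2 : ∀ h, thorpLaw m h = (∑ c : Fin m → Bool, if sperm m c = h then (1 : ℝ) else 0) /
        2 ^ m := by
      intro h
      unfold thorpLaw
      rw [card_eq_sum]
      congr 1
      refine Finset.sum_congr rfl fun c _ => ?_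
      simp only [isThorp_iff]
    rw [h0, h1]
    have h3 : ∀ h, thorpLaw m h * convPow (thorpLaw m) t (h⁻¹ * g) =
        ∑ c : Fin m → Bool, (if sperm m c = h then (1 : ℝ) else 0) *
          (convPow (thorpLaw m) t (h⁻¹ * g) / 2 ^ m) := by
      intro h
      rw [h2, ← Finset.sum_mul]
      ring
    rw [Finset.sum_congr rfl fun h _ => h3 h, Finset.sum_comm]
    have h4 : ∀ c : Fin m → Bool, ∑ h, (if sperm m c = h then (1 : ℝ) else 0) *
          (convPow (thorpLaw m) t (h⁻¹ * g) / 2 ^ m) =
        convPow (thorpLaw m) t ((sperm m c)⁻¹ * g) / 2 ^ m := by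
      intro c
      rw [Finset.sum_eq_single (sperm m c)]
      · rw [if_pos rfl, one_mul]
      · intro h _ hh
        rw [if_neg (Ne.symm hh), zero_mul]
      · intro h
        exact absurd (Finset.mem_univ _) h
    rw [Finset.sum_congr rfl fun c _ => h4 c]
    have h5 : ∀ c : Fin m → Bool, convPow (thorpLaw m) t ((sperm m c)⁻¹ * g) / 2 ^ m =
        (∑ w : Fin t → Fin m → Bool, if sperm m c * pperm m t w = g then (1 : ℝ) else 0) /
          2 ^ (m * (t + 1)) := by
      intro c
      rw [← ih, h0, div_div, ← pow_add, Nat.mul_succ]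
      congr 1
      refine Finset.sum_congr rfl fun w _ => ?_
      simp only [eq_inv_mul_iff_mul_eq]
    rw [Finset.sum_congr rfl fun c _ => h5 c, ← Finset.sum_div]
    congr 1
    rw [← Equiv.sum_comp (Fin.snocEquiv (fun _ : Fin (t + 1) => Fin m → Bool)),
      Fintype.sum_prod_type]
    refine Finset.sum_congr rfl fun c _ => Finset.sum_congr rfl fun w _ => ?_
    have h6 : pperm m (t + 1) (Fin.snocEquiv (fun _ : Fin (t + 1) => Fin m → Bool) (c, w)) =
        sperm m c * pperm m t w := by
      change sperm m (Fin.snoc (α := fun _ : Fin (t + 1) => Fin m → Bool) w c (Fin.last t)) *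
        pperm m t (fun s => Fin.snoc (α := fun _ : Fin (t + 1) => Fin m → Bool) w c s.castSucc) = _
      simp only [Fin.snoc_last, Fin.snoc_castSucc]
    rw [h6]

theorem tvDist_eq (m t : ℕ) : tvDist m t = tvUnif (convPow (thorpLaw m) t) := by
  unfold tvDist tvUnif
  congr 1
  refine Finset.sum_congr rfl fun g _ => ?_
  rw [law_eq, Fintype.card_perm, Fintype.card_fin]

end Vale.Agent.P162G
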